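import Vale.Agent.P181.DG9.H207.All
import Vale.Agent.P181.DH.H357.AsmH
import Vale.Agent.P181.DH.H674.Sem
import Vale.Agent.P181.DH.H89.Tri

set_option autoImplicit false

/-!
# P181, DH: the assembly without a strip, without hypotheses
-/

namespace Vale.Agent.P181.DH

open Vale.Agent.P181.SZ Vale.Agent.P181.DG

/-- (H3) -/
theorem semStmt : SemT := semT H89.triT

/-- (H4) -/
theorem asmH : AsmH :=
  H357.asmH DGx.H831.monoT DG2.H398.upT DGx.H248.lowT DG9.disT DG5.fewT DG7.flowT
    (fun a b m lam => R1a a b m lam) SZR2a.lowerA monoTI semStmt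

end Vale.Agent.P181.DH
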