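import Vale.Agent.P181.DH.H207.All
import Vale.Agent.P181.DH.H924.Uni
import Vale.Agent.P181.DX.H207.All

set_option autoImplicit false

/-!
# P181, DH: the theorem at distance `√w` from the diagonal, without hypotheses
-/

namespace Vale.Agent.P181.DH

open Vale.Agent.P181.SZ Vale.Agent.P181.DG

/-- No condition on the shape for `P w ≤ (b - a) ^ 2`, `P w ≤ a ^ 2`. -/
theorem diagHc : H924.DiagH :=
  H924.diagH_of DU.asmU asmH PL4.lbl (PL3.lbi PL2.lEx) SZN3.lbcF SZN3.lbrF H467.NT.linS

/-- **`P w ≤ (b - a) ^ 2`: every shape.** -/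
theorem uniDc : H924.UniD := H924.uniD_of diagHc TW.twice PLX.polyS

/-- **One sentence for all `a ≤ b`.** -/
theorem uniHc : H924.UniH := H924.uniH_of DX.uniXc uniDc

end Vale.Agent.P181.DH
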